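import Vale.Agent.P141.H498.Hold
import Vale.Agent.P141.H48.ENdefs

/-!
# P141, line (A): the numbers of the unsplit parts

* `hp_num` : the price `H498.prf` of three families whose own energies and square energies are
  monomials in `t`, `s`, `r`, `ez`, `8 ^ K`;
* `hp_price` : the same with the constant of `H205.NS_nf3_le`;
* `lim_ez`, `ES_mono` : the case `ez = 0`.
-/

namespace Vale.Agent.P141.H593

open Vale.Agent.P141.PL (Pt)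
open Vale.Agent.P141.H498 (prf plog plog_le_rpow)
open Vale.Agent.P141.H48 (ES BSl)

noncomputable section

theorem plog_nonneg (x : ℝ) : 0 ≤ plog x := le_max_left _ _

theorem plog_mono {x y : ℝ} (hx : 0 < x) (h : x ≤ y) : plog x ≤ plog y :=
  max_le_max le_rfl (Real.log_le_log hx h)

/-- the logarithm with the ratio of the first family -/
theorem prf_le_fst {gA gB gC dA dB dC X θ : ℝ} (hθ : 0 < θ) (hA : 0 < gA) (hB : 0 < gB)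
    (hC : 0 < gC) (hdA : 0 < dA) (hdB : 0 < dB) (hdC : 0 < dC) (hX : dA ^ 2 / gA / (dC ^ 2 / gC) ≤ X) :
    prf gA gB gC dA dB dC ≤
      gA ^ (1 / 4 : ℝ) * gB ^ (1 / 4 : ℝ) * dC ^ (1 / 2 : ℝ) * (1 + θ⁻¹ * X ^ θ) := by
  unfold H498.prf
  have h1 : 0 < dA ^ 2 / gA := by positivity
  have h2 : 0 < dB ^ 2 / gB := by positivity
  have h3 : 0 < dC ^ 2 / gC := by positivity
  have h4 : 0 < min (dA ^ 2 / gA) (dB ^ 2 / gB) / (dC ^ 2 / gC) := div_pos (lt_min h1 h2) h3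
  have h5 : min (dA ^ 2 / gA) (dB ^ 2 / gB) / (dC ^ 2 / gC) ≤ X :=
    (div_le_div_of_nonneg_right (min_le_left _ _) h3.le).trans hX
  have h6 : 0 ≤ gA ^ (1 / 4 : ℝ) * gB ^ (1 / 4 : ℝ) * dC ^ (1 / 2 : ℝ) := by positivity
  refine mul_le_mul_of_nonneg_left ?_ h6
  have h7 := plog_mono h4 h5
  have h8 := plog_le_rpow hθ (h4.le.trans h5)
  linarith

/-- **The numbers.** -/
theorem hp_num {pA pB qA qB wA wC wG θ gam del : ℝ} (hθ : 0 < θ) (hqA : 0 ≤ qA)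
    (hw : 0 ≤ 2 * wA + wG + 2 + pA - 2 * wC)
    (hg : gam + (2 * wA + wG + 2 + pA - 2 * wC) * θ + wC / 2 ≤ (pA + pB) / 4)
    (hd : del + qA * θ ≤ (qA + qB) / 4) {CA CB cA cC cG : ℝ} (hCA : 0 < CA) (hCB : 0 < CB)
    (hcA : 0 < cA) (hcC : 0 < cC) (hcG : 0 < cG) :
    ∃ C : ℝ, 0 ≤ C ∧ ∀ t : ℝ, 0 < t → t ≤ 1 → ∀ s r ez : ℝ, 0 < s → 1 ≤ r → 0 < ez →
      ∀ (K : ℕ) (DB : ℝ), 0 < DB →
      prf (CA * (t ^ (2 + pA) * s ^ (3 / 2 : ℝ) * r ^ (-qA) * 8 ^ K))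
        (CB * (t ^ (2 + pB) * s ^ (3 / 2 : ℝ) * r ^ (-qB) * 8 ^ K))
        (cG * (ez ^ 2 * t ^ (-wG) * s ^ (3 / 2 : ℝ) * 8 ^ K))
        (cA * (t ^ (-wA) * s * 8 ^ K)) DB (cC * (ez * t ^ (-wC) * s * 8 ^ K)) ≤
      C * (t ^ (1 + gam) * s ^ (5 / 4 : ℝ) * √ez * 8 ^ K) * r ^ (-del) := by
  set w : ℝ := 2 * wA + wG + 2 + pA - 2 * wC with hwd
  set cX : ℝ := cA ^ 2 * cG / (CA * cC ^ 2) with hcX
  have hcX0 : 0 < cX := by positivity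
  refine ⟨CA ^ (1 / 4 : ℝ) * CB ^ (1 / 4 : ℝ) * cC ^ (1 / 2 : ℝ) * (1 + θ⁻¹ * cX ^ θ),
    by positivity, ?_⟩
  intro t ht ht1 s r ez hs hr hez K DB hDB
  have hr0 : 0 < r := by linarith
  have h8 : (0 : ℝ) < 8 ^ K := by positivity
  -- the ratio
  have hX : (cA * (t ^ (-wA) * s * 8 ^ K)) ^ 2 / (CA * (t ^ (2 + pA) * s ^ (3 / 2 : ℝ) *
      r ^ (-qA) * 8 ^ K)) / ((cC * (ez * t ^ (-wC) * s * 8 ^ K)) ^ 2 /
        (cG * (ez ^ 2 * t ^ (-wG) * s ^ (3 / 2 : ℝ) * 8 ^ K))) ≤ cX * (t ^ (-w) * r ^ qA) := by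
    refine le_of_eq ?_
    have e1 : t ^ (-w) * t ^ (2 + pA) * (t ^ (-wC)) ^ 2 = (t ^ (-wA)) ^ 2 * t ^ (-wG) := by
      rw [← Real.rpow_natCast (t ^ (-wC)), ← Real.rpow_natCast (t ^ (-wA)), ← Real.rpow_mul ht.le,
        ← Real.rpow_mul ht.le, ← Real.rpow_add ht, ← Real.rpow_add ht, ← Real.rpow_add ht]
      congr 1
      rw [hwd]
      push_cast
      ring
    have e2 : r ^ qA * r ^ (-qA) = 1 := by
      rw [← Real.rpow_add hr0, add_neg_cancel, Real.rpow_zero]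
    have n1 : 0 < t ^ (2 + pA) := Real.rpow_pos_of_pos ht _
    have n2 : 0 < t ^ (-wC) := Real.rpow_pos_of_pos ht _
    have n3 : 0 < t ^ (-wG) := Real.rpow_pos_of_pos ht _
    have n4 : 0 < s ^ (3 / 2 : ℝ) := Real.rpow_pos_of_pos hs _
    have n5 : 0 < r ^ (-qA) := Real.rpow_pos_of_pos hr0 _
    have e3 : (t ^ (-w) * t ^ (2 + pA) * (t ^ (-wC)) ^ 2) * (r ^ qA * r ^ (-qA)) / t ^ (-wG) =
        (t ^ (-wA)) ^ 2 := by
      rw [e1, e2, mul_one, mul_div_assoc, div_self n3.ne', mul_one]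
    rw [div_eq_iff (by positivity), div_eq_iff (by positivity), hcX]
    calc (cA * (t ^ (-wA) * s * 8 ^ K)) ^ 2 = cA ^ 2 * s ^ 2 * (8 ^ K) ^ 2 * (t ^ (-wA)) ^ 2 := by
          ring
      _ = cA ^ 2 * s ^ 2 * (8 ^ K) ^ 2 *
          ((t ^ (-w) * t ^ (2 + pA) * (t ^ (-wC)) ^ 2) * (r ^ qA * r ^ (-qA)) / t ^ (-wG)) := by
          rw [e3]
      _ = _ := by
          field_simp
  have n1 : 0 < t ^ (2 + pA) := Real.rpow_pos_of_pos ht _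
  have n1' : 0 < t ^ (2 + pB) := Real.rpow_pos_of_pos ht _
  have n2 : 0 < t ^ (-wC) := Real.rpow_pos_of_pos ht _
  have n2' : 0 < t ^ (-wA) := Real.rpow_pos_of_pos ht _
  have n3 : 0 < t ^ (-wG) := Real.rpow_pos_of_pos ht _
  have n4 : 0 < s ^ (3 / 2 : ℝ) := Real.rpow_pos_of_pos hs _
  have n5 : 0 < r ^ (-qA) := Real.rpow_pos_of_pos hr0 _
  have n5' : 0 < r ^ (-qB) := Real.rpow_pos_of_pos hr0 _
  refine (prf_le_fst hθ (by positivity) (by positivity) (by positivity) (by positivity) hDB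
    (by positivity) hX).trans ?_
  -- the factor with the logarithm
  have hT : 1 ≤ t ^ (-(w * θ)) :=
    Real.one_le_rpow_of_pos_of_le_one_of_nonpos ht ht1 (by nlinarith)
  have hR : 1 ≤ r ^ (qA * θ) := Real.one_le_rpow hr (by positivity)
  have hlog : 1 + θ⁻¹ * (cX * (t ^ (-w) * r ^ qA)) ^ θ ≤
      (1 + θ⁻¹ * cX ^ θ) * (t ^ (-(w * θ)) * r ^ (qA * θ)) := by
    have e4 : (cX * (t ^ (-w) * r ^ qA)) ^ θ = cX ^ θ * (t ^ (-(w * θ)) * r ^ (qA * θ)) := by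
      rw [Real.mul_rpow hcX0.le (by positivity), Real.mul_rpow (by positivity) (by positivity),
        ← Real.rpow_mul ht.le, ← Real.rpow_mul hr0.le]
      congr 3
      ring
    rw [e4, add_mul, one_mul]
    have h1 : 1 ≤ t ^ (-(w * θ)) * r ^ (qA * θ) := one_le_mul_of_one_le_of_one_le hT hR
    nlinarith
  -- the main factor
  have hmain : (CA * (t ^ (2 + pA) * s ^ (3 / 2 : ℝ) * r ^ (-qA) * 8 ^ K)) ^ (1 / 4 : ℝ) *
      (CB * (t ^ (2 + pB) * s ^ (3 / 2 : ℝ) * r ^ (-qB) * 8 ^ K)) ^ (1 / 4 : ℝ) *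
      (cC * (ez * t ^ (-wC) * s * 8 ^ K)) ^ (1 / 2 : ℝ) =
      CA ^ (1 / 4 : ℝ) * CB ^ (1 / 4 : ℝ) * cC ^ (1 / 2 : ℝ) *
        (t ^ (1 + ((pA + pB) / 4 - wC / 2)) * s ^ (5 / 4 : ℝ) * √ez * 8 ^ K) *
        r ^ (-((qA + qB) / 4)) := by
    have k8 : ((8 : ℝ) ^ K) ^ (1 / 4 : ℝ) * ((8 : ℝ) ^ K) ^ (1 / 4 : ℝ) *
        ((8 : ℝ) ^ K) ^ (1 / 2 : ℝ) = 8 ^ K := by
      rw [← Real.rpow_add h8, ← Real.rpow_add h8]
      norm_num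
    have kt : (t ^ (2 + pA)) ^ (1 / 4 : ℝ) * (t ^ (2 + pB)) ^ (1 / 4 : ℝ) *
        (t ^ (-wC)) ^ (1 / 2 : ℝ) = t ^ (1 + ((pA + pB) / 4 - wC / 2)) := by
      rw [← Real.rpow_mul ht.le, ← Real.rpow_mul ht.le, ← Real.rpow_mul ht.le,
        ← Real.rpow_add ht, ← Real.rpow_add ht]
      congr 1
      ring
    have ks : (s ^ (3 / 2 : ℝ)) ^ (1 / 4 : ℝ) * (s ^ (3 / 2 : ℝ)) ^ (1 / 4 : ℝ) *
        s ^ (1 / 2 : ℝ) = s ^ (5 / 4 : ℝ) := by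
      rw [← Real.rpow_mul hs.le, ← Real.rpow_add hs, ← Real.rpow_add hs]
      norm_num
    have kr : (r ^ (-qA)) ^ (1 / 4 : ℝ) * (r ^ (-qB)) ^ (1 / 4 : ℝ) = r ^ (-((qA + qB) / 4)) := by
      rw [← Real.rpow_mul hr0.le, ← Real.rpow_mul hr0.le, ← Real.rpow_add hr0]
      congr 1
      ring
    rw [Real.mul_rpow hCA.le (by positivity), Real.mul_rpow (by positivity) h8.le,
      Real.mul_rpow (by positivity) n5.le, Real.mul_rpow n1.le n4.le,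
      Real.mul_rpow hCB.le (by positivity), Real.mul_rpow (by positivity) h8.le,
      Real.mul_rpow (by positivity) n5'.le, Real.mul_rpow n1'.le n4.le,
      Real.mul_rpow hcC.le (by positivity), Real.mul_rpow (by positivity) h8.le,
      Real.mul_rpow (by positivity) hs.le, Real.mul_rpow hez.le n2.le, Real.sqrt_eq_rpow ez]
    calc _ = CA ^ (1 / 4 : ℝ) * CB ^ (1 / 4 : ℝ) * cC ^ (1 / 2 : ℝ) *
        (((t ^ (2 + pA)) ^ (1 / 4 : ℝ) * (t ^ (2 + pB)) ^ (1 / 4 : ℝ) *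
          (t ^ (-wC)) ^ (1 / 2 : ℝ)) * ((s ^ (3 / 2 : ℝ)) ^ (1 / 4 : ℝ) *
          (s ^ (3 / 2 : ℝ)) ^ (1 / 4 : ℝ) * s ^ (1 / 2 : ℝ)) * ez ^ (1 / 2 : ℝ) *
          (((8 : ℝ) ^ K) ^ (1 / 4 : ℝ) * ((8 : ℝ) ^ K) ^ (1 / 4 : ℝ) *
          ((8 : ℝ) ^ K) ^ (1 / 2 : ℝ))) * ((r ^ (-qA)) ^ (1 / 4 : ℝ) *
          (r ^ (-qB)) ^ (1 / 4 : ℝ)) := by ring
      _ = _ := by rw [kt, ks, k8, kr]
  rw [hmain]
  have hE1 : t ^ (1 + ((pA + pB) / 4 - wC / 2)) * t ^ (-(w * θ)) ≤ t ^ (1 + gam) := by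
    rw [← Real.rpow_add ht]
    exact Real.rpow_le_rpow_of_exponent_ge ht ht1 (by linarith)
  have hE2 : r ^ (-((qA + qB) / 4)) * r ^ (qA * θ) ≤ r ^ (-del) := by
    rw [← Real.rpow_add hr0]
    exact Real.rpow_le_rpow_of_exponent_le hr (by linarith)
  have hb : 0 ≤ CA ^ (1 / 4 : ℝ) * CB ^ (1 / 4 : ℝ) * cC ^ (1 / 2 : ℝ) *
      (t ^ (1 + ((pA + pB) / 4 - wC / 2)) * s ^ (5 / 4 : ℝ) * √ez * 8 ^ K) *
        r ^ (-((qA + qB) / 4)) := by positivity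
  refine (mul_le_mul_of_nonneg_left hlog hb).trans ?_
  have hk : 0 ≤ CA ^ (1 / 4 : ℝ) * CB ^ (1 / 4 : ℝ) * cC ^ (1 / 2 : ℝ) * (1 + θ⁻¹ * cX ^ θ) := by
    positivity
  calc _ = CA ^ (1 / 4 : ℝ) * CB ^ (1 / 4 : ℝ) * cC ^ (1 / 2 : ℝ) * (1 + θ⁻¹ * cX ^ θ) *
        ((t ^ (1 + ((pA + pB) / 4 - wC / 2)) * t ^ (-(w * θ))) * s ^ (5 / 4 : ℝ) * √ez * 8 ^ K) *
        (r ^ (-((qA + qB) / 4)) * r ^ (qA * θ)) := by ring
    _ ≤ CA ^ (1 / 4 : ℝ) * CB ^ (1 / 4 : ℝ) * cC ^ (1 / 2 : ℝ) * (1 + θ⁻¹ * cX ^ θ) *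
        (t ^ (1 + gam) * s ^ (5 / 4 : ℝ) * √ez * 8 ^ K) * r ^ (-del) := by
      gcongr

/-- **The numbers**, with the constant of `H205.NS_nf3_le`. -/
theorem hp_price {pA pB qA qB wA wC wG θ gam del : ℝ} (hθ : 0 < θ) (hqA : 0 ≤ qA)
    (hw : 0 ≤ 2 * wA + wG + 2 + pA - 2 * wC)
    (hg : gam + (2 * wA + wG + 2 + pA - 2 * wC) * θ + wC / 2 ≤ (pA + pB) / 4)
    (hd : del + qA * θ ≤ (qA + qB) / 4) {CA CB cA cC cG : ℝ} (hCA : 0 < CA) (hCB : 0 < CB)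
    (hcA : 0 < cA) (hcC : 0 < cC) (hcG : 0 < cG) {cP : ℝ} (hcP : 0 ≤ cP) :
    ∃ C : ℝ, 0 ≤ C ∧ ∀ t : ℝ, 0 < t → t ≤ 1 → ∀ s r ez : ℝ, 0 < s → 1 ≤ r → 0 < ez →
      ∀ (K : ℕ) (DB : ℝ), 0 < DB →
      3 * (2 * (2160 * 4400) * cP *
        prf (CA * (t ^ (2 + pA) * s ^ (3 / 2 : ℝ) * r ^ (-qA) * 8 ^ K))
          (CB * (t ^ (2 + pB) * s ^ (3 / 2 : ℝ) * r ^ (-qB) * 8 ^ K))
          (cG * (ez ^ 2 * t ^ (-wG) * s ^ (3 / 2 : ℝ) * 8 ^ K))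
          (cA * (t ^ (-wA) * s * 8 ^ K)) DB (cC * (ez * t ^ (-wC) * s * 8 ^ K))) ≤
      C * (t ^ (1 + gam) * s ^ (5 / 4 : ℝ) * √ez * 8 ^ K) * r ^ (-del) := by
  obtain ⟨C, hC, h⟩ := hp_num hθ hqA hw hg hd hCA hCB hcA hcC hcG
  refine ⟨3 * (2 * (2160 * 4400) * cP * C), by positivity, ?_⟩
  intro t ht ht1 s r ez hs hr hez K DB hDB
  have h1 := h t ht ht1 s r ez hs hr hez K DB hDB
  have h2 : (0 : ℝ) ≤ 3 * (2 * (2160 * 4400) * cP) := by positivity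
  have h3 := mul_le_mul_of_nonneg_left h1 h2
  refine le_trans (le_of_eq ?_) (h3.trans (le_of_eq ?_))
  · ring
  · ring

/-! ### The case `ez = 0` -/

/-- limit in `ez` -/
theorem lim_ez {X M ez : ℝ} (h : ∀ ez', ez < ez' → X ≤ M * √ez') : X ≤ M * √ez := by
  have hc : Filter.Tendsto (fun y => M * √y) (nhdsWithin ez (Set.Ioi ez)) (nhds (M * √ez)) := by
    refine Filter.Tendsto.mono_left ?_ nhdsWithin_le_nhds
    exact (continuous_const.mul Real.continuous_sqrt).tendsto ez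
  refine ge_of_tendsto hc ?_
  filter_upwards [self_mem_nhdsWithin] with y hy
  exact h y hy

theorem ES_mono {n : ℕ} {e e' cP : ℝ} {F : ℕ → Pt → ℝ} (h : ES n e cP F) (he : e ≤ e') :
    ES n e' cP F := by
  obtain ⟨h0, Q, hQ⟩ := h
  refine ⟨h0.trans he, Q, hQ.agree, hQ.pack, fun k hk m x y => ?_, fun k hk m x y => ?_,
    fun k hk m x y => ?_⟩
  · exact (hQ.l0 k hk m x y).trans (by gcongr)
  · exact (hQ.l1 k hk m x y).trans (by gcongr)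
  · exact (hQ.l2 k hk m x y).trans (by gcongr)

end

end Vale.Agent.P141.H593
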