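import Vale.Agent.P141.H971.Split

/-!
# P141, CE: energy of the static vector edge seen by the split off directions (M4)

`v x1 x3` is vector valued, `opn T (v x1) ≤ c` for every `x1` (top potentials).  For directions
`η x1` the scalar edge `⟪η x1, v x1 x3⟫` has energy at most `c ∑ ‖η x1‖²`; for an orthonormal family
of `r` directions per `x1` at most `c r`; for directions on nested squares with
`∑_{J ∋ (x1, x2)} η_J ⊗ η_J ≤ 1` the total energy is at most the energy of `v`.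
-/

namespace Vale.Agent.P141.H593

open Finset Vale.Agent.P141.H971

noncomputable section

variable {V : Type*} [NormedAddCommGroup V] [InnerProductSpace ℝ V]

/-- one row -/
theorem row_dir (T : Finset ℤ) (f : ℤ → V) {c : ℝ} (h : opn T f ≤ c) (e : V) :
    ∑ x ∈ T, (inner ℝ e (f x)) ^ 2 ≤ c * ‖e‖ ^ 2 := by
  have h1 : ∑ x ∈ T, (inner ℝ e (f x)) ^ 2 = qf T f e := by
    unfold qf
    exact sum_congr rfl fun x _ => by rw [real_inner_comm]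
  rw [h1]
  exact (qf_le_opn T f e).trans (mul_le_mul_of_nonneg_right h (sq_nonneg _))

/-- **One direction for every `x1`**: all `x3` of the top interval `T`. -/
theorem dir_top (J T : Finset ℤ) (v : ℤ → ℤ → V) {c : ℝ} (h : ∀ x ∈ J, opn T (v x) ≤ c)
    (η : ℤ → V) :
    ∑ x ∈ J, ∑ z ∈ T, (inner ℝ (η x) (v x z)) ^ 2 ≤ c * ∑ x ∈ J, ‖η x‖ ^ 2 := by
  rw [mul_sum]
  exact sum_le_sum fun x hx => row_dir T (v x) (h x hx) (η x)

/-- unit directions -/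
theorem dir_top_card (J T : Finset ℤ) (v : ℤ → ℤ → V) {c : ℝ} (hc : 0 ≤ c)
    (h : ∀ x ∈ J, opn T (v x) ≤ c) {η : ℤ → V} (hη : ∀ x ∈ J, ‖η x‖ ≤ 1) :
    ∑ x ∈ J, ∑ z ∈ T, (inner ℝ (η x) (v x z)) ^ 2 ≤ c * (J.card : ℝ) := by
  refine (dir_top J T v h η).trans (mul_le_mul_of_nonneg_left ?_ hc)
  calc ∑ x ∈ J, ‖η x‖ ^ 2 ≤ ∑ _x ∈ J, (1 : ℝ) :=
        sum_le_sum fun x hx => pow_le_one₀ (norm_nonneg _) (hη x hx)
    _ = (J.card : ℝ) := by simp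

/-- **A family of directions for every `x1`** (for example a basis of the range of a projection):
the energy of the vector `(⟪e k x, v x z⟫)_k`. -/
theorem dir_family {κ : Type*} (K : Finset κ) (J T : Finset ℤ) (v : ℤ → ℤ → V) {c : ℝ}
    (h : ∀ x ∈ J, opn T (v x) ≤ c) (e : κ → ℤ → V) :
    ∑ x ∈ J, ∑ z ∈ T, ∑ k ∈ K, (inner ℝ (e k x) (v x z)) ^ 2 ≤
      c * ∑ x ∈ J, ∑ k ∈ K, ‖e k x‖ ^ 2 := by
  rw [mul_sum]
  refine sum_le_sum fun x hx => ?_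
  rw [sum_comm, mul_sum]
  exact sum_le_sum fun k _ => row_dir T (v x) (h x hx) (e k x)

/-- at most `r` unit directions for every `x1` -/
theorem dir_family_card {κ : Type*} (K : Finset κ) (J T : Finset ℤ) (v : ℤ → ℤ → V) {c r : ℝ}
    (hc : 0 ≤ c) (h : ∀ x ∈ J, opn T (v x) ≤ c) (e : κ → ℤ → V)
    (hr : ∀ x ∈ J, ∑ k ∈ K, ‖e k x‖ ^ 2 ≤ r) :
    ∑ x ∈ J, ∑ z ∈ T, ∑ k ∈ K, (inner ℝ (e k x) (v x z)) ^ 2 ≤ c * (r * (J.card : ℝ)) := by
  refine (dir_family K J T v h e).trans (mul_le_mul_of_nonneg_left ?_ hc)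
  calc ∑ x ∈ J, ∑ k ∈ K, ‖e k x‖ ^ 2 ≤ ∑ _x ∈ J, r := sum_le_sum hr
    _ = r * (J.card : ℝ) := by rw [sum_const, nsmul_eq_mul, mul_comm]

/-- **Nested squares.**  `i ∈ E` are the events with the squares `J1 i × J2 i` inside `I1 × I2`.
If `∑_{i : (x1, x2) ∈ J i} η i x1 ⊗ η i x1 ≤ 1` then the total energy of the scalar edges
`⟪η i x1, v x1 x3⟫`, weighted by the squares, is at most the energy of `v`. -/
theorem dir_nested {ι : Type*} (E : Finset ι) (J1 J2 : ι → Finset ℤ) (I1 I2 T : Finset ℤ)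
    (h1 : ∀ i ∈ E, J1 i ⊆ I1) (h2 : ∀ i ∈ E, J2 i ⊆ I2) (η : ι → ℤ → V) (v : ℤ → ℤ → V)
    (hop : ∀ x ∈ I1, ∀ y ∈ I2, ∀ w : V,
      ∑ i ∈ E, (if x ∈ J1 i ∧ y ∈ J2 i then (inner ℝ (η i x) w) ^ 2 else 0) ≤ ‖w‖ ^ 2) :
    ∑ i ∈ E, ((J2 i).card : ℝ) * ∑ x ∈ J1 i, ∑ z ∈ T, (inner ℝ (η i x) (v x z)) ^ 2 ≤
      (I2.card : ℝ) * ∑ x ∈ I1, ∑ z ∈ T, ‖v x z‖ ^ 2 := by
  classical
  have e1 : ∀ i ∈ E, ((J2 i).card : ℝ) * ∑ x ∈ J1 i, ∑ z ∈ T, (inner ℝ (η i x) (v x z)) ^ 2 =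
      ∑ x ∈ I1, ∑ y ∈ I2, ∑ z ∈ T,
        (if x ∈ J1 i ∧ y ∈ J2 i then (inner ℝ (η i x) (v x z)) ^ 2 else 0) := by
    intro i hi
    have a1 : ∑ x ∈ I1, ∑ y ∈ I2, ∑ z ∈ T,
        (if x ∈ J1 i ∧ y ∈ J2 i then (inner ℝ (η i x) (v x z)) ^ 2 else 0) =
        ∑ x ∈ I1, (if x ∈ J1 i then ((J2 i).card : ℝ) *
          ∑ z ∈ T, (inner ℝ (η i x) (v x z)) ^ 2 else 0) := by
      refine sum_congr rfl fun x _ => ?_
      by_cases hx : x ∈ J1 i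
      · simp only [hx, true_and, if_true]
        have a2 : ∀ y ∈ I2, ∑ z ∈ T, (if y ∈ J2 i then (inner ℝ (η i x) (v x z)) ^ 2 else 0) =
            if y ∈ J2 i then ∑ z ∈ T, (inner ℝ (η i x) (v x z)) ^ 2 else 0 := by
          intro y _
          split_ifs <;> simp
        rw [sum_congr rfl a2, ← sum_filter, filter_mem_eq_inter, inter_eq_right.mpr (h2 i hi),
          sum_const, nsmul_eq_mul]
      · simp [hx]
    rw [a1, ← sum_filter, filter_mem_eq_inter, inter_eq_right.mpr (h1 i hi), mul_sum]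
  rw [sum_congr rfl e1, sum_comm, mul_sum]
  refine sum_le_sum fun x hx => ?_
  rw [sum_comm]
  have e2 : ∀ y ∈ I2, ∑ i ∈ E, ∑ z ∈ T,
      (if x ∈ J1 i ∧ y ∈ J2 i then (inner ℝ (η i x) (v x z)) ^ 2 else 0) ≤
        ∑ z ∈ T, ‖v x z‖ ^ 2 := by
    intro y hy
    rw [sum_comm]
    exact sum_le_sum fun z _ => hop x hx y hy (v x z)
  refine (sum_le_sum e2).trans (le_of_eq ?_)
  rw [sum_const, nsmul_eq_mul]

/-- the same with the bound `c` of the top potentials: every event costs at most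
`c |J1| |J2|`, the sum over the events at most the energy of `v`. -/
theorem dir_event {ι : Type*} (J1 J2 : ι → Finset ℤ) (T : Finset ℤ) (i : ι) (η : ι → ℤ → V)
    (v : ℤ → ℤ → V) {c : ℝ} (hc : 0 ≤ c) (h : ∀ x ∈ J1 i, opn T (v x) ≤ c)
    (hη : ∀ x ∈ J1 i, ‖η i x‖ ≤ 1) :
    ((J2 i).card : ℝ) * ∑ x ∈ J1 i, ∑ z ∈ T, (inner ℝ (η i x) (v x z)) ^ 2 ≤
      c * (((J1 i).card : ℝ) * ((J2 i).card : ℝ)) := by
  have := mul_le_mul_of_nonneg_left (dir_top_card (J1 i) T v hc h hη)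
    (Nat.cast_nonneg (α := ℝ) (J2 i).card)
  calc ((J2 i).card : ℝ) * ∑ x ∈ J1 i, ∑ z ∈ T, (inner ℝ (η i x) (v x z)) ^ 2
      ≤ ((J2 i).card : ℝ) * (c * ((J1 i).card : ℝ)) := this
    _ = _ := by ring

end

end Vale.Agent.P141.H593
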